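import Vale.Agent.P043.Pins

/-!
P043: assembly of the pins.
-/

namespace Vale.Agent.P043

theorem exists_surjective_lattice {Γ : Type} [AddCommGroup Γ] {d : ℕ} (hd : 5 ≤ d)
    (π : (Fin 3 → ℤ) →+ Γ) (hπ : Function.Surjective π) :
    ∃ ρ : (Fin d → ℤ) →+ (ℤ × ℤ) × Γ, Function.Surjective ρ := by
  let sel : (Fin d → ℤ) →+ (ℤ × ℤ) × (Fin 3 → ℤ) :=
    { toFun := fun v => ((v ⟨0, by omega⟩, v ⟨1, by omega⟩), fun i => v ⟨i.1 + 2, by omega⟩)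
      map_zero' := rfl
      map_add' := fun _ _ => rfl }
  refine ⟨((AddMonoidHom.id (ℤ × ℤ)).prodMap π).comp sel, ?_⟩
  rintro ⟨⟨a, b⟩, γ⟩
  obtain ⟨w, rfl⟩ := hπ γ
  refine ⟨fun j => if j.1 = 0 then a else if j.1 = 1 then b else
    if h : j.1 - 2 < 3 then w ⟨j.1 - 2, h⟩ else 0, ?_⟩
  simp [sel]

theorem periodicTilingFails_of (hcore : CorePin) (hgad : GadgetPin) (hcomb : CombinePin)
    (hlift : LiftPin) : PeriodicTilingFails := by
  intro d hd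
  obtain ⟨Γ, i1, i2, F, ⟨π, hπ⟩, hF⟩ := hcomb (hgad hcore)
  obtain ⟨ρ, hρ⟩ := exists_surjective_lattice hd π hπ
  exact hlift d (by omega) _ inferInstance ρ hρ F hF

end Vale.Agent.P043
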