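import Vale.Agent.P043.Pins

/-!
P043: a finite system of tiling equations with a common translation set becomes one tile.
Equation `i` gets the two layers `2^(2i)`, `2^(2i+1)` of `ZMod N`, all other layers get the fibre.
-/

namespace Vale.Agent.P043

open Finset

theorem two_pow_add_two_pow {p r q : ℕ} (h : 2 ^ p + 2 ^ r = 2 ^ q) : p = r := by
  wlog hpr : p ≤ r generalizing p r
  · exact (this (by omega) (le_of_not_ge hpr)).symm
  by_contra hne
  have hpq : p < q := by
    by_contra hge
    have := Nat.pow_le_pow_right (show 0 < 2 by norm_num) (not_lt.1 hge)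
    have := Nat.two_pow_pos r
    omega
  have h1 : 2 ^ (p + 1) ∣ 2 ^ r := pow_dvd_pow 2 (by omega)
  have h2 : 2 ^ (p + 1) ∣ 2 ^ q := pow_dvd_pow 2 (by omega)
  rw [← h] at h2
  have := Nat.le_of_dvd (Nat.two_pow_pos p) ((Nat.dvd_add_left h1).1 h2)
  have h3 := Nat.pow_lt_pow_right (show 1 < 2 by norm_num) (Nat.lt_succ_self p)
  omega

theorem IsTiling.map {G H : Type*} [AddCommGroup G] [AddCommGroup H] (e : G ≃+ H) {F : Finset G}
    {A : Set G} (h : IsTiling F A) : IsTiling (F.map e.toEquiv.toEmbedding) (e '' A) := by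
  intro x
  obtain ⟨f, ⟨hf, hfA⟩, hu⟩ := h (e.symm x)
  refine ⟨e f, ⟨mem_map_of_mem _ hf, e.symm x - f, hfA, by simp⟩, ?_⟩
  rintro y ⟨hy, a, ha, hay⟩
  obtain ⟨f', hf', rfl⟩ := mem_map.1 hy
  have : a = e.symm x - f' := by
    apply e.injective
    simpa using hay
  exact congrArg e (hu f' ⟨hf', this ▸ ha⟩)

theorem IsPeriodic.map {G H : Type*} [AddCommGroup G] [AddCommGroup H] (e : G ≃+ H)
    {A : Set G} (h : IsPeriodic A) : IsPeriodic (e '' A) := by
  obtain ⟨P, hP, hinv⟩ := h
  refine ⟨P.map e.toAddMonoidHom, ?_, ?_⟩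
  · rw [AddSubgroup.finiteIndex_iff] at hP ⊢
    rwa [show (P.map e.toAddMonoidHom).index = P.index from
      AddSubgroup.index_map_equiv P e]
  · rintro _ ⟨p, hp, rfl⟩ x
    obtain ⟨y, rfl⟩ := e.surjective x
    change e y + e p ∈ e '' A ↔ e y ∈ e '' A
    rw [← map_add, e.injective.mem_set_image, e.injective.mem_set_image]
    exact hinv p hp y

theorem IsAperiodicTile.map {G H : Type*} [AddCommGroup G] [AddCommGroup H] (e : G ≃+ H)
    {F : Finset G} (h : IsAperiodicTile F) :
    IsAperiodicTile (F.map e.toEquiv.toEmbedding) := by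
  obtain ⟨⟨A, hA⟩, hno⟩ := h
  refine ⟨⟨_, hA.map e⟩, fun B hB hper => ?_⟩
  have hB' := hB.map e.symm
  have hF : (F.map e.toEquiv.toEmbedding).map e.symm.toEquiv.toEmbedding = F := by
    ext x; simp
  rw [hF] at hB'
  exact hno _ hB' (hper.map e.symm)

/-- A system with a fibre equation, all tiles of the size of the fibre, becomes one tile with an
extra cyclic factor of arbitrarily large prime order. -/
theorem exists_combine {G ι : Type*} [AddCommGroup G] [Fintype ι]
    (K : AddSubgroup G) (Kf : Finset G) (hKf : ∀ x, x ∈ Kf ↔ x ∈ K)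
    (W : Finset G) (hW : ∀ H : AddSubgroup G, (∀ w ∈ W, w ∈ H) → H = ⊤)
    (F : ι → Finset G) (hcard : ∀ i, (F i).card = Kf.card) (i₀ : ι) (hi₀ : F i₀ = Kf)
    (hex : ∃ A, SystemTiles F A) (hno : ∀ A, SystemTiles F A → ¬ IsPeriodic A) (n₀ : ℕ) :
    ∃ (N : ℕ) (T : Finset (G × ZMod N)), N.Prime ∧ n₀ < N ∧ IsAperiodicTile T := by
  classical
  -- the equations and their layers
  set Eq : ι ⊕ W → Finset G := Sum.elim F (fun w => Kf.image fun k => (w : G) + k) with hEq
  obtain ⟨M, ⟨num⟩⟩ : ∃ M, Nonempty (ι ⊕ W ≃ Fin M) := ⟨_, ⟨Fintype.equivFin _⟩⟩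
  obtain ⟨N, hN, hNp⟩ := Nat.exists_infinite_primes (2 ^ (2 * M + 2) + n₀ + 1)
  have : NeZero N := ⟨hNp.ne_zero⟩
  have hpw : ∀ p q, p < 2 * M → q < 2 * M → (2 : ZMod N) ^ p = 2 ^ q → p = q := by
    intro p q hp hq h
    have h' : ((2 ^ p : ℕ) : ZMod N) = ((2 ^ q : ℕ) : ZMod N) := by push_cast; exact h
    rw [ZMod.natCast_eq_natCast_iff'] at h'
    have b : ∀ s, s < 2 * M → 2 ^ s < N := fun s hs => by
      have := Nat.pow_le_pow_right (show 0 < 2 by norm_num) (show s ≤ 2 * M + 2 by omega)
      omega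
    rw [Nat.mod_eq_of_lt (b p hp), Nat.mod_eq_of_lt (b q hq)] at h'
    exact Nat.pow_right_injective le_rfl h'
  set lay : (ι ⊕ W) × Fin 2 → ZMod N :=
    fun u => 2 ^ (2 * (num u.1 : ℕ) + (u.2 : ℕ)) with hlay
  have hinj : Function.Injective lay := by
    rintro ⟨i, b⟩ ⟨i', b'⟩ h
    have h1 := (num i).2
    have h2 := (num i').2
    have h3 := b.2
    have h4 := b'.2
    have := hpw (2 * (num i : ℕ) + (b : ℕ)) (2 * (num i' : ℕ) + (b' : ℕ)) (by omega) (by omega) h
    have e1 : num i = num i' := Fin.ext (by omega)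
    have e2 : b = b' := Fin.ext (by omega)
    exact Prod.ext (num.injective e1) e2
  set E : Finset (ZMod N) := univ.image lay with hE
  have hEcard : 2 * E.card < N := by
    have : E.card ≤ 2 * M := by
      refine card_image_le.trans ?_
      simp [Fintype.card_congr num, mul_comm]
    have : 2 ^ (2 * M + 2) = 2 * 2 ^ (2 * M + 1) := by rw [pow_succ']
    have := Nat.lt_two_pow_self (n := 2 * M + 1)
    omega
  set tile : ZMod N → Finset G :=
    fun z => if h : z ∈ E then Eq (mem_image.1 h).choose.1 else Kf with htile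
  have tile_lay : ∀ i b, tile (lay (i, b)) = Eq i := by
    intro i b
    have h : lay (i, b) ∈ E := mem_image_of_mem _ (mem_univ _)
    simp only [htile, dif_pos h]
    rw [hinj (mem_image.1 h).choose_spec.2]
  have tile_out : ∀ z, z ∉ E → tile z = Kf := fun z h => by simp only [htile, dif_neg h]
  have tile_card : ∀ z, (tile z).card = Kf.card := by
    intro z
    by_cases h : z ∈ E
    · obtain ⟨⟨i, b⟩, -, rfl⟩ := mem_image.1 h
      rw [tile_lay]
      rcases i with i | w
      · exact hcard i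
      · exact card_image_of_injective _ (add_right_injective _)
    · rw [tile_out z h]
  set T : Finset (G × ZMod N) := univ.biUnion fun z => tile z ×ˢ {z} with hT
  have memT : ∀ f z, (f, z) ∈ T ↔ f ∈ tile z := by intro f z; simp [hT]
  have := Nat.two_pow_pos (2 * M + 2)
  refine ⟨N, T, hNp, by omega, ?_, ?_⟩
  · -- existence
    obtain ⟨A, hA⟩ := hex
    have hK : IsTiling Kf A := hi₀ ▸ hA i₀
    have htl : ∀ z, IsTiling (tile z) A := by
      intro z
      by_cases h : z ∈ E
      · obtain ⟨⟨i, b⟩, -, rfl⟩ := mem_image.1 h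
        rw [tile_lay]
        rcases i with i | w
        · exact hA i
        · intro g
          obtain ⟨k, ⟨hk, hkA⟩, hu⟩ := hK (g - w)
          refine ⟨w + k, ⟨mem_image_of_mem _ hk, by rwa [← sub_sub]⟩, ?_⟩
          rintro f ⟨hf, hfA⟩
          obtain ⟨k', hk', rfl⟩ := mem_image.1 hf
          rw [hu k' ⟨hk', by rwa [sub_sub]⟩]
      · rw [tile_out z h]; exact hK
    refine ⟨{p | p.2 = 0 ∧ p.1 ∈ A}, fun p => ?_⟩
    obtain ⟨g, y⟩ := p
    obtain ⟨f, ⟨hf, hfA⟩, hu⟩ := htl y g
    refine ⟨(f, y), ⟨(memT f y).2 hf, sub_self y, hfA⟩, ?_⟩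
    rintro ⟨f', z⟩ ⟨hf', hz : y - z = 0, hfA'⟩
    obtain rfl := sub_eq_zero.1 hz
    rw [hu f' ⟨(memT f' y).1 hf', hfA'⟩]
  · intro A hA hper
    -- at most one point of the tiling in a coset of the fibre
    have huniq : ∀ a ∈ A, ∀ b ∈ A, a.1 - b.1 ∈ K → a = b := by
      intro a ha b hb hab
      obtain ⟨y, hy1, hy2⟩ : ∃ y, y - a.2 ∉ E ∧ y - b.2 ∉ E := by
        by_contra hcon
        push Not at hcon
        have hsub : (univ : Finset (ZMod N)) ⊆ E.image (· + a.2) ∪ E.image (· + b.2) := by
          intro y _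
          by_cases h : y - a.2 ∈ E
          · exact mem_union_left _ (mem_image.2 ⟨_, h, sub_add_cancel _ _⟩)
          · exact mem_union_right _ (mem_image.2 ⟨_, hcon y h, sub_add_cancel _ _⟩)
        have := (card_le_card hsub).trans
          ((card_union_le _ _).trans (add_le_add card_image_le card_image_le))
        rw [card_univ, ZMod.card] at this
        omega
      have h1 : (a.1 - b.1, y - b.2) ∈ T := by
        rw [memT, tile_out _ hy2, hKf]; exact hab
      have h2 : ((0 : G), y - a.2) ∈ T := by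
        rw [memT, tile_out _ hy1, hKf]; exact K.zero_mem
      have := (hA (a.1, y)).unique ⟨h1, by simpa using hb⟩ ⟨h2, by simpa using ha⟩
      rw [Prod.mk.injEq, sub_eq_zero, sub_right_inj] at this
      exact Prod.ext this.1 this.2.symm
    -- and at least one
    have hex' : ∀ g, ∃ a ∈ A, a.1 - g ∈ K := by
      intro g
      by_contra hcon
      push Not at hcon
      choose cov hcov _ using hA
      have hzE : ∀ k ∈ Kf, ∀ y, (cov (g + k, y)).2 ∈ E := by
        intro k hk y
        by_contra hz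
        have hm := (hcov (g + k, y)).1
        rw [← Prod.mk.eta (p := cov (g + k, y)), memT, tile_out _ hz, hKf] at hm
        refine hcon _ (hcov (g + k, y)).2 ?_
        have : (g + k - (cov (g + k, y)).1) - g = k - (cov (g + k, y)).1 := by abel
        simpa [this] using K.sub_mem ((hKf k).1 hk) hm
      have hle : (Kf ×ˢ (univ : Finset (ZMod N))).card ≤ (T.filter fun p => p.2 ∈ E).card := by
        refine card_le_card_of_injOn (fun ky => cov (g + ky.1, ky.2)) ?_ ?_
        · intro ky hky
          rw [mem_coe, mem_product] at hky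
          exact mem_filter.2 ⟨(hcov _).1, hzE _ hky.1 _⟩
        · intro u hu v hv huv
          rw [mem_coe, mem_product] at hu hv
          simp only at huv
          have h1 := (hcov (g + u.1, u.2)).2
          have h2 := (hcov (g + v.1, v.2)).2
          rw [huv] at h1
          have := huniq _ h1 _ h2 (by simpa using K.sub_mem ((hKf _).1 hu.1) ((hKf _).1 hv.1))
          simp only [Prod.mk.injEq, sub_left_inj, add_right_inj] at this
          exact Prod.ext this.1 this.2
      have hsub : (T.filter fun p => p.2 ∈ E) ⊆ E.biUnion fun z => tile z ×ˢ {z} := by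
        rintro ⟨f, z⟩ h
        rw [mem_filter, memT] at h
        exact mem_biUnion.2 ⟨z, h.2, by simp [h.1]⟩
      have h2 := hle.trans ((card_le_card hsub).trans card_biUnion_le)
      simp only [card_product, card_singleton, mul_one, tile_card, sum_const, smul_eq_mul,
        card_univ, ZMod.card] at h2
      have h0 : 0 < Kf.card := card_pos.2 ⟨0, (hKf 0).2 K.zero_mem⟩
      have := Nat.le_of_mul_le_mul_left (h2.trans (le_of_eq (mul_comm _ _))) h0
      omega
    choose pt hpt hptK using hex'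
    have hpt_eq : ∀ a ∈ A, ∀ g, a.1 - g ∈ K → pt g = a := by
      intro a ha g h
      refine huniq _ (hpt g) _ ha ?_
      simpa using K.sub_mem (hptK g) h
    -- equations do not change the layer
    have hstep : ∀ a ∈ A, ∀ i, ∀ f ∈ Eq i, (pt (a.1 + f)).2 = a.2 := by
      intro a ha i f hf
      set b := pt (a.1 + f) with hb
      have hclaim : ∀ s, lay (i, s) + (a.2 - b.2) ∈ E := by
        intro s
        by_contra hz
        have h1 : (f, lay (i, s)) ∈ T := by rw [memT, tile_lay]; exact hf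
        have h2 : (a.1 + f - b.1, lay (i, s) + (a.2 - b.2)) ∈ T := by
          rw [memT, tile_out _ hz, hKf, ← neg_sub]
          exact K.neg_mem (hptK _)
        have := (hA (a.1 + f, a.2 + lay (i, s))).unique ⟨h1, by simpa using ha⟩
          ⟨h2, by
            convert hpt (a.1 + f) using 1
            refine Prod.ext (by simp [hb]) ?_
            simp [hb]; ring⟩
        rw [Prod.mk.injEq] at this
        exact hz (this.2 ▸ mem_image_of_mem _ (mem_univ _))
      obtain ⟨u, -, hu⟩ := mem_image.1 (hclaim 0)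
      obtain ⟨v, -, hv⟩ := mem_image.1 (hclaim 1)
      simp only [hlay, Fin.val_zero, Fin.val_one, add_zero, pow_succ] at hu hv
      set r := 2 * (num i : ℕ) with hr
      set p := 2 * (num u.1 : ℕ) + (u.2 : ℕ) with hp
      set q := 2 * (num v.1 : ℕ) + (v.2 : ℕ) with hq
      have heq : ((2 ^ p + 2 ^ r : ℕ) : ZMod N) = ((2 ^ q : ℕ) : ZMod N) := by
        push_cast
        rw [hu, hv]
        ring
      have hlt : ∀ w : ι ⊕ W, ∀ s : Fin 2, 2 ^ (2 * (num w : ℕ) + (s : ℕ)) ≤ 2 ^ (2 * M) :=
        fun w s => Nat.pow_le_pow_right (show 0 < 2 by norm_num)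
          (by have := (num w).2; have := s.2; omega)
      rw [ZMod.natCast_eq_natCast_iff', Nat.mod_eq_of_lt, Nat.mod_eq_of_lt] at heq
      · rw [two_pow_add_two_pow heq] at hu
        have : a.2 - b.2 = 0 := by linear_combination -hu
        exact (sub_eq_zero.1 this).symm
      · have := hlt v.1 v.2
        rw [← hq] at this
        have := Nat.pow_le_pow_right (show 0 < 2 by norm_num) (show 2 * M ≤ 2 * M + 2 by omega)
        omega
      · have h1 := hlt u.1 u.2
        have h2 := hlt i 0
        simp only [Fin.val_zero, add_zero] at h2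
        rw [← hr] at h2
        rw [← hp] at h1
        have h3 : 2 ^ (2 * M + 2) = 4 * 2 ^ (2 * M) := by rw [pow_add]; ring
        omega
    -- so the layer is constant
    have hconst : ∀ g, (pt g).2 = (pt 0).2 := by
      let H : AddSubgroup G :=
        { carrier := {w | ∀ g, (pt (g + w)).2 = (pt g).2}
          zero_mem' := fun g => by rw [add_zero]
          add_mem' := fun {x y} hx hy g => by rw [← add_assoc, hy, hx]
          neg_mem' := fun {x} hx g => by
            have := hx (g + -x)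
            rw [neg_add_cancel_right] at this
            exact this.symm }
      have hH : H = ⊤ := hW H fun w hw g => by
        have h1 := hstep _ (hpt g) (Sum.inr ⟨w, hw⟩) w
          (mem_image.2 ⟨0, (hKf 0).2 K.zero_mem, add_zero _⟩)
        rw [← h1]
        refine congrArg Prod.snd (hpt_eq _ (hpt _) _ ?_)
        have e : (pt ((pt g).1 + w)).1 - (g + w)
            = ((pt ((pt g).1 + w)).1 - ((pt g).1 + w)) + ((pt g).1 - g) := by abel
        rw [e]
        exact K.add_mem (hptK _) (hptK _)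
      intro g
      have hg : g ∈ H := hH ▸ AddSubgroup.mem_top g
      simpa using hg 0
    have hlayer : ∀ a ∈ A, a.2 = (pt 0).2 := by
      intro a ha
      rw [← hconst a.1, hpt_eq a ha a.1 (by simp)]
    -- the projected set solves the system
    refine hno {x | (x, (pt 0).2) ∈ A} ?_ ?_
    · intro i g
      set z := lay (Sum.inl i, 0)
      obtain ⟨⟨f, z'⟩, ⟨hf, hfA⟩, hu⟩ := hA (g, (pt 0).2 + z)
      have hz : z' = z := by
        have := hlayer _ hfA
        simp only [Prod.mk_sub_mk] at this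
        linear_combination -this
      subst hz
      rw [memT, tile_lay] at hf
      refine ⟨f, ⟨hf, ?_⟩, ?_⟩
      · simpa using hfA
      · rintro f' ⟨hf', hfA'⟩
        have := hu (f', z) ⟨by rw [memT, tile_lay]; exact hf', by simpa using hfA'⟩
        exact (Prod.mk.injEq _ _ _ _ ▸ this).1
    · obtain ⟨P, hP, hinv⟩ := hper
      refine ⟨P.map (AddMonoidHom.fst G (ZMod N)), ?_, ?_⟩
      · rw [AddSubgroup.finiteIndex_iff] at hP ⊢
        exact ne_zero_of_dvd_ne_zero hP (AddSubgroup.index_map_dvd _ fun x => ⟨(x, 0), rfl⟩)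
      · rintro _ ⟨⟨h, t⟩, hp, rfl⟩ x
        change (x + h, (pt 0).2) ∈ A ↔ (x, (pt 0).2) ∈ A
        constructor <;> intro hx
        · have h1 := (hinv _ (P.neg_mem hp) (x + h, (pt 0).2)).2 hx
          have h2 := hlayer _ h1
          simp only [Prod.neg_mk, Prod.mk_add_mk] at h1 h2
          rw [h2, add_neg_cancel_right] at h1
          exact h1
        · have h1 := (hinv _ hp (x, (pt 0).2)).2 hx
          have h2 := hlayer _ h1
          simp only [Prod.mk_add_mk] at h1 h2
          rwa [h2] at h1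

/-- Systems of tiling equations become one tile. -/
theorem combinePin : CombinePin := by
  classical
  rintro ⟨Γ, iG, iF, K, ι, iι, F, hcard, ⟨i₀, hi₀⟩, ⟨π, hπ⟩, hex, hno⟩
  set W : Finset ((ℤ × ℤ) × Γ) :=
    {((1, 0), 0), ((0, 1), 0)} ∪ univ.image fun γ : Γ => ((0 : ℤ × ℤ), γ)
  have hW : ∀ H : AddSubgroup ((ℤ × ℤ) × Γ), (∀ w ∈ W, w ∈ H) → H = ⊤ := by
    intro H hH
    rw [AddSubgroup.eq_top_iff']
    rintro ⟨⟨n, m⟩, γ⟩
    have e : ((n, m), γ) = n • (((1 : ℤ), (0 : ℤ)), (0 : Γ)) + m • (((0 : ℤ), (1 : ℤ)), (0 : Γ))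
        + ((0 : ℤ × ℤ), γ) := by simp
    rw [e]
    exact H.add_mem (H.add_mem (H.zsmul_mem (hH _ (by simp [W])) n)
      (H.zsmul_mem (hH _ (by simp [W])) m)) (hH _ (by simp [W]))
  obtain ⟨N, T, hNp, hNcard, hT⟩ := exists_combine (AddSubgroup.prod ⊥ K) (fibre K)
    (fun x => by
      obtain ⟨x, γ⟩ := x
      simp [fibre, AddSubgroup.mem_prod, eq_comm, and_comm])
    W hW F hcard i₀ hi₀ hex hno (Fintype.card Γ)
  have : NeZero N := ⟨hNp.ne_zero⟩
  have : Fact N.Prime := ⟨hNp⟩
  refine ⟨Γ × ZMod N, inferInstance, inferInstance,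
    T.map (AddEquiv.prodAssoc (M := ℤ × ℤ) (N := Γ) (P := ZMod N)).toEquiv.toEmbedding,
    ⟨π.prod ((Int.castAddHom (ZMod N)).comp (Pi.evalAddMonoidHom (fun _ : Fin 3 => ℤ) 0)), ?_⟩,
    hT.map _⟩
  rintro ⟨γ, t⟩
  obtain ⟨v, rfl⟩ := hπ γ
  have hne : ((Fintype.card Γ : ℕ) : ZMod N) ≠ 0 := by
    rw [Ne, ZMod.natCast_eq_zero_iff]
    exact fun h => absurd (Nat.le_of_dvd Fintype.card_pos h) (by omega)
  obtain ⟨k, hk⟩ := ZMod.intCast_surjective ((t - (v 0 : ZMod N)) / (Fintype.card Γ : ZMod N))
  refine ⟨v + Fintype.card Γ • (k • Pi.single 0 1), Prod.ext ?_ ?_⟩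
  · change π (v + _) = π v
    rw [map_add, map_nsmul, card_nsmul_eq_zero, add_zero]
  · simp [hk]
    field_simp
    ring

end Vale.Agent.P043
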