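import Mathlib

/-!
P043: translational tilings by one finite tile, and periodicity.
-/

namespace Vale.Agent.P043

/-- The translates of the finite set `F` by the elements of `A` partition the group. -/
def IsTiling {G : Type*} [AddCommGroup G] (F : Finset G) (A : Set G) : Prop :=
  ∀ g : G, ∃! f : G, f ∈ F ∧ g - f ∈ A

/-- `A` is invariant under some subgroup of finite index. -/
def IsPeriodic {G : Type*} [AddCommGroup G] (A : Set G) : Prop :=
  ∃ H : AddSubgroup G, H.FiniteIndex ∧ ∀ h ∈ H, ∀ a : G, a + h ∈ A ↔ a ∈ A

/-- The finite set `F` tiles, but none of its tilings is periodic. -/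
def IsAperiodicTile {G : Type*} [AddCommGroup G] (F : Finset G) : Prop :=
  (∃ A : Set G, IsTiling F A) ∧ ∀ A : Set G, IsTiling F A → ¬ IsPeriodic A

/-- The periodic tiling conjecture fails in every lattice of rank at least five. -/
def PeriodicTilingFails : Prop :=
  ∀ d : ℕ, 5 ≤ d → ∃ F : Finset (Fin d → ℤ), F.Nonempty ∧ IsAperiodicTile F

end Vale.Agent.P043
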