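import Vale.Agent.P043.Defs
import Vale.Agent.P043.Euclid.Rigid

/-!
P043: an aperiodic tile of `ℤ^d` gives a measurable tile of `ℝ^d` without periodic tilings.
-/

noncomputable section

open MeasureTheory Set

namespace Vale.Agent.P043.Euclid

variable {d : ℕ}

/-- The finite tile thickened by the rigid domain. -/
def thick (F : Finset (Fin d → ℤ)) : Set (Fin d → ℝ) := ⋃ f ∈ F, sh (intVec f) (dom d)

lemma mem_thick {F : Finset (Fin d → ℤ)} {y : Fin d → ℝ} :
    y ∈ thick F ↔ ∃ f ∈ F, y - intVec f ∈ dom d := by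
  simp [thick, sh]

/-- A discrete tiling thickens to a tiling of space. -/
lemma thick_tiles {F : Finset (Fin d → ℤ)} {A : Set (Fin d → ℤ)} (hA : IsTiling F A) :
    TilesSpace (thick F) (intVec '' A) := by
  refine ⟨ae_of_all _ fun x => ?_, ?_⟩
  · obtain ⟨n, hn, -⟩ := dom_partition x
    obtain ⟨f, ⟨hf, hfA⟩, -⟩ := hA n
    refine ⟨_, mem_image_of_mem _ hfA, mem_thick.2 ⟨f, hf, ?_⟩⟩
    rwa [sub_sub, ← map_add, sub_add_cancel]
  · rintro _ ⟨a, ha, rfl⟩ _ ⟨b, hb, rfl⟩ hne
    convert measure_empty (μ := (volume : Measure (Fin d → ℝ)))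
    refine eq_empty_of_forall_notMem fun x hx => hne ?_
    obtain ⟨f, hf, h1⟩ := mem_thick.1 hx.1
    obtain ⟨g, hg, h2⟩ := mem_thick.1 hx.2
    rw [sub_sub, ← map_add] at h1 h2
    obtain ⟨n, -, hn⟩ := dom_partition x
    have e1 := hn _ h1
    have e2 := hn _ h2
    obtain ⟨f', -, hu⟩ := hA n
    have u1 := hu f ⟨hf, by rwa [← e1, add_sub_cancel_right]⟩
    have u2 := hu g ⟨hg, by rwa [← e2, add_sub_cancel_right]⟩
    congr 1
    exact add_right_cancel ((e1.trans e2.symm).trans (by rw [u1, u2]))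

/-- A tiling of space by the thickened tile sits on one coset and tiles `ℤ^d` there. -/
lemma tiling_of_thick {F : Finset (Fin d → ℤ)} {A : Set (Fin d → ℝ)}
    (hT : TilesSpace (thick F) A) :
    ∃ v, (∀ a ∈ A, ∃ n, a = v + intVec n) ∧ IsTiling F {n | v + intVec n ∈ A} := by
  have huniq : ∀ a ∈ A, ∀ b ∈ A, ∀ f ∈ F, ∀ g ∈ F, a + intVec f = b + intVec g → a = b := by
    intro a ha b hb f hf g hg h
    by_contra hne
    refine (lt_of_lt_of_le (body_pos (d := d)) ?_).ne' (hT.2 ha hb hne)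
    rw [← volume_sh (a + intVec f)]
    refine measure_mono fun x hx => ⟨mem_thick.2 ⟨f, hf, ?_⟩, mem_thick.2 ⟨g, hg, ?_⟩⟩
    · rw [sub_sub]; exact Or.inl hx
    · rw [sub_sub, ← h]; exact Or.inl hx
  set B : Set (Fin d → ℝ) := {b | ∃ a ∈ A, ∃ f ∈ F, b = a + intVec f}
  have hB : TilesSpace (dom d) B := by
    refine ⟨hT.1.mono fun x ⟨a, ha, hx⟩ => ?_, ?_⟩
    · obtain ⟨f, hf, hx⟩ := mem_thick.1 hx
      exact ⟨_, ⟨a, ha, f, hf, rfl⟩, by rwa [← sub_sub]⟩
    · rintro b ⟨a, ha, f, hf, rfl⟩ c ⟨a', ha', g, hg, rfl⟩ hne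
      rcases eq_or_ne a a' with rfl | haa
      · convert measure_empty (μ := (volume : Measure (Fin d → ℝ)))
        refine eq_empty_of_forall_notMem fun x ⟨h1, h2⟩ => hne ?_
        obtain ⟨n, -, hn⟩ := dom_partition (x - a)
        rw [hn f (show _ ∈ dom d by rw [sub_sub]; exact h1),
          hn g (show _ ∈ dom d by rw [sub_sub]; exact h2)]
      · refine measure_mono_null (fun x ⟨h1, h2⟩ => ?_) (hT.2 ha ha' haa)
        exact ⟨mem_thick.2 ⟨f, hf, by rw [sub_sub]; exact h1⟩,
          mem_thick.2 ⟨g, hg, by rw [sub_sub]; exact h2⟩⟩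
  obtain ⟨v, hv⟩ := dom_rigid hB
  obtain ⟨a0, ha0, f0, hf0, hv0⟩ : v ∈ B := (hv v).2 ⟨0, by rw [map_zero, add_zero]⟩
  refine ⟨v, fun a ha => ?_, fun m => ?_⟩
  · obtain ⟨n, hn⟩ := (hv _).1 ⟨a, ha, f0, hf0, rfl⟩
    exact ⟨n - f0, by rw [map_sub, ← add_sub_assoc, ← hn, add_sub_cancel_right]⟩
  · obtain ⟨a, ha, f, hf, hm⟩ := (hv _).2 ⟨m, rfl⟩
    have he : a = v + intVec (m - f) := by
      rw [map_sub, ← add_sub_assoc, hm, add_sub_cancel_right]
    refine ⟨f, ⟨hf, show _ ∈ A from he ▸ ha⟩, ?_⟩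
    rintro g ⟨hg, hgA⟩
    have hg' : v + intVec (m - g) + intVec g = a + intVec f := by
      rw [← hm, add_assoc, ← map_add, sub_add_cancel]
    have := huniq _ hgA _ ha g hg f hf hg'
    rw [he] at this
    exact sub_right_injective (intVec_injective (add_left_cancel this))

/-- Invariance under independent integer vectors is periodicity. -/
lemma periodic_of_vectors {A : Set (Fin d → ℤ)} (m : Fin d → Fin d → ℤ)
    (hm : LinearIndependent ℝ fun i => intVec (m i)) (h : ∀ i a, a + m i ∈ A ↔ a ∈ A) :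
    IsPeriodic A := by
  let S : AddSubgroup (Fin d → ℤ) :=
    { carrier := {w | ∀ a, a + w ∈ A ↔ a ∈ A}
      zero_mem' := fun a => by rw [add_zero]
      add_mem' := fun {u w} hu hw a => by rw [← add_assoc, hw, hu]
      neg_mem' := fun {u} hu a => by rw [← hu (a + -u), neg_add_cancel_right] }
  set M : Matrix (Fin d) (Fin d) ℤ := Matrix.of m
  have hdet : M.det ≠ 0 := by
    have hu : IsUnit ((Int.castRingHom ℝ).mapMatrix M) :=
      Matrix.linearIndependent_rows_iff_isUnit.1 hm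
    rw [Matrix.isUnit_iff_isUnit_det, ← RingHom.map_det, isUnit_iff_ne_zero] at hu
    intro h0
    simp [h0] at hu
  have hrow : ∀ i, M.det • (Pi.single i 1 : Fin d → ℤ) ∈ S := by
    intro i
    have : M.det • (Pi.single i 1 : Fin d → ℤ) = ∑ j, M.adjugate i j • m j := by
      funext k
      have := congrFun (congrFun M.adjugate_mul i) k
      rw [Matrix.mul_apply] at this
      simp only [Finset.sum_apply, Pi.smul_apply, smul_eq_mul]
      refine Eq.trans ?_ this.symm
      rcases eq_or_ne i k with rfl | hik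
      · simp
      · simp [hik, hik.symm]
    rw [this]
    exact sum_mem fun j _ => zsmul_mem (show m j ∈ S from h j) _
  set P : ℕ := M.det.natAbs
  have : NeZero P := ⟨Int.natAbs_ne_zero.2 hdet⟩
  let φ : (Fin d → ℤ) →+ (Fin d → ZMod P) := (Int.castAddHom (ZMod P)).compLeft (Fin d)
  have hle : φ.ker ≤ S := by
    intro w hw
    have hdiv : ∀ i, M.det ∣ w i := fun i => by
      have : ((w i : ℤ) : ZMod P) = 0 := congrFun hw i
      exact Int.natAbs_dvd.1 ((ZMod.intCast_zmod_eq_zero_iff_dvd _ _).1 this)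
    choose q hq using hdiv
    have : w = ∑ i, q i • (M.det • (Pi.single i 1 : Fin d → ℤ)) := by
      funext k
      simp only [Finset.sum_apply, Pi.smul_apply, Pi.single_apply, smul_eq_mul, mul_ite, mul_one,
        mul_zero, Finset.sum_ite_eq, Finset.mem_univ, if_true]
      rw [hq k]
      ring
    rw [this]
    exact sum_mem fun i _ => zsmul_mem (hrow i) _
  refine ⟨φ.ker, ⟨?_⟩, fun w hw => hle hw⟩
  rw [AddSubgroup.index_ker]
  exact (Nat.card_pos).ne'

/-- **The transfer**: an aperiodic tile of `ℤ^d` gives one of `ℝ^d`. -/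
theorem hasAperiodicTile_of {F : Finset (Fin d → ℤ)} (hF : F.Nonempty) (h : IsAperiodicTile F) :
    HasAperiodicTile d := by
  obtain ⟨⟨A, hA⟩, hno⟩ := h
  obtain ⟨f0, hf0⟩ := hF
  refine ⟨thick F, F.measurableSet_biUnion fun f _ => measurable_sh measurable_dom _,
    ?_, ?_, ⟨_, thick_tiles hA⟩, fun B hB hper => ?_⟩
  · refine (Bornology.isBounded_biUnion_finset F).2 fun f _ => ?_
    refine (Metric.isBounded_closedBall (x := intVec f) (r := 2)).subset fun x hx => ?_
    rw [Metric.mem_closedBall, dist_eq_norm]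
    simpa using dom_subset hx
  · refine lt_of_lt_of_le (body_pos (d := d)) ?_
    rw [← volume_sh (intVec f0)]
    exact measure_mono fun x hx => mem_thick.2 ⟨f0, hf0, Or.inl hx⟩
  · obtain ⟨v, hv, hT⟩ := tiling_of_thick hB
    obtain ⟨w, hw, hinv⟩ := hper
    obtain ⟨f, ⟨-, hfA⟩, -⟩ := hT 0
    have hint : ∀ i, ∃ n, w i = intVec n := fun i => by
      obtain ⟨n, hn⟩ := hv _ ((hinv i _).2 hfA)
      exact ⟨n - (0 - f), by rw [map_sub, ← add_right_inj (v + intVec (0 - f)), hn]; abel⟩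
    choose m hm using hint
    refine hno _ hT (periodic_of_vectors m ?_ fun i a => ?_)
    · simpa only [← hm] using hw
    · show v + intVec (a + m i) ∈ B ↔ v + intVec a ∈ B
      rw [map_add, ← add_assoc, ← hm]
      exact hinv i _

/-- **Euclidean half**: the periodic tiling conjecture fails in every `ℝ^d` with `d ≥ 5` as soon as
it fails in the lattices. -/
theorem euclidean_fails_of (h : PeriodicTilingFails) :
    ∀ d : ℕ, 5 ≤ d → HasAperiodicTile d := fun d hd =>
  let ⟨_, hne, hF⟩ := h d hd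
  hasAperiodicTile_of hne hF

end Vale.Agent.P043.Euclid
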