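import Vale.Agent.P043.Pins
import Vale.Agent.P043.Lift.Keys

/-!
P043 (LiftPin): keyed boxes turn an aperiodic tile of a quotient of `ℤ^d` into one of `ℤ^d`.

Cell `f` is the box at `M • lift f` with the cavities of the keys it owns, plus one protrusion
per owned key at `M • (lift f + disp k)`. Grid keys (displacement a unit vector) are owned by
every cell, the key `(f, v)` (displacement `v` in the kernel) only by `f`.
-/

namespace Vale.Agent.P043.Lift

variable {d : ℕ}

/-- The input of the construction. -/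
structure Data (d : ℕ) (G : Type) [AddCommGroup G] where
  ι : Type
  fι : Fintype ι
  val : ι → G
  val_inj : Function.Injective val
  π : (Fin d → ℤ) →+ G
  lft : ι → Fin d → ℤ
  π_lft : ∀ f, π (lft f) = val f
  gens : Finset (Fin d → ℤ)
  gens_ker : ∀ v ∈ gens, π v = 0
  a0 : Fin d
  a1 : Fin d
  a10 : a1 ≠ a0

namespace Data

variable {G : Type} [AddCommGroup G] (D : Data d G)

attribute [local instance] Data.fι

/-- The keys. -/
abbrev Key : Type := Fin d ⊕ (D.ι × {v // v ∈ D.gens})

noncomputable def num (k : D.Key) : ℕ := (Fintype.equivFin D.Key k : ℕ)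

noncomputable def cnt : ℕ := Fintype.card D.Key

lemma num_lt (k : D.Key) : D.num k < D.cnt := (Fintype.equivFin D.Key k).2

lemma num_inj {k k' : D.Key} (h : D.num k = D.num k') : k = k' :=
  (Fintype.equivFin D.Key).injective (Fin.ext h)

/-- The displacement of a key. -/
def disp : D.Key → Fin d → ℤ
  | .inl l => Pi.single l 1
  | .inr (_, v) => v.1

/-- Ownership. -/
def Owns (f : D.ι) : D.Key → Prop
  | .inl _ => True
  | .inr (g, _) => g = f

noncomputable def M : ℤ := side D.cnt

noncomputable def key (k : D.Key) (ε : Bool) : Fin d → ℤ := pt D.a0 D.cnt (D.num k) ε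

/-- Cavity points. -/
def Cav (f : D.ι) (r : Fin d → ℤ) : Prop := ∃ k ε, D.Owns f k ∧ r = D.key k ε

/-- Offset `z` belongs to the body of the cell at the origin. -/
def Body (f : D.ι) (z : Fin d → ℤ) : Prop := InBox D.cnt z ∧ ¬ D.Cav f z

/-- Offset `z` belongs to a protrusion of the cell at the origin. -/
def Prot (f : D.ι) (k : D.Key) (z : Fin d → ℤ) : Prop :=
  D.Owns f k ∧ ∃ ε, z = D.M • D.disp k + D.key k ε

/-- The new tile. -/
def Mem (y : Fin d → ℤ) : Prop :=
  ∃ f, D.Body f (y - D.M • D.lft f) ∨ ∃ k, D.Prot f k (y - D.M • D.lft f)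

lemma key_box (k : D.Key) (ε : Bool) : InBox D.cnt (D.key k ε) := inBox_pt _ (D.num_lt k) ε

lemma key_inj {k k' : D.Key} {ε η : Bool} (h : D.key k ε = D.key k' η) : k = k' ∧ ε = η := by
  obtain ⟨h1, h2⟩ := pt_inj D.a0 (D.num_lt k) (D.num_lt k') h
  exact ⟨D.num_inj h1, h2⟩

lemma key_a1 (k : D.Key) (ε : Bool) : D.key k ε D.a1 = 2 := pt_other D.a10 _ _ _

lemma not_cav_of {f : D.ι} {r : Fin d → ℤ} (h : r D.a1 ≠ 2) : ¬ D.Cav f r := by
  rintro ⟨k, ε, -, rfl⟩
  exact h (D.key_a1 k ε)

lemma mem_finite : {y | D.Mem y}.Finite := by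
  refine Set.Finite.subset
    ((Set.toFinite (Set.univ : Set D.ι)).biUnion
      (t := fun f => (Set.Icc (D.M • D.lft f) (D.M • D.lft f + fun _ => D.M)) ∪
        Set.range fun u : D.Key × Bool => D.M • D.lft f + (D.M • D.disp u.1 + D.key u.1 u.2))
      fun f _ => (Set.finite_Icc _ _).union (Set.finite_range _)) ?_
  rintro y ⟨f, hb | ⟨k, -, ε, hk⟩⟩
  · refine Set.mem_biUnion (Set.mem_univ f) (Or.inl ⟨fun l => ?_, fun l => ?_⟩)
    · have := (hb.1 l).1
      simp only [Pi.sub_apply] at this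
      linarith
    · have := (hb.1 l).2
      simp only [Pi.sub_apply, Pi.add_apply] at this ⊢
      unfold M at this ⊢
      linarith
  · refine Set.mem_biUnion (Set.mem_univ f) (Or.inr ⟨(k, ε), ?_⟩)
    show D.M • D.lft f + _ = y
    rw [← hk]
    abel

noncomputable def tile : Finset (Fin d → ℤ) := D.mem_finite.toFinset

lemma mem_tile {y : Fin d → ℤ} : y ∈ D.tile ↔ D.Mem y := Set.Finite.mem_toFinset _

/-- A point of the tile has one representation. -/
lemma rep_unique {y : Fin d → ℤ} {f g : D.ι} :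
    (D.Body f (y - D.M • D.lft f) → D.Body g (y - D.M • D.lft g) → f = g) ∧
    (∀ k, D.Body f (y - D.M • D.lft f) → D.Prot g k (y - D.M • D.lft g) → False) ∧
    (∀ k k', D.Prot f k (y - D.M • D.lft f) → D.Prot g k' (y - D.M • D.lft g) →
      f = g ∧ k = k') := by
  refine ⟨fun hf hg => ?_, fun k hf hg => ?_, fun k k' hf hg => ?_⟩
  · obtain ⟨h, -⟩ := div_unique (p := D.lft f) (q := D.lft g) hf.1 hg.1
      (by show D.M • _ + _ = D.M • _ + _; abel)
    exact D.val_inj (by rw [← D.π_lft, ← D.π_lft, h])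
  · obtain ⟨hown, ε, he⟩ := hg
    obtain ⟨h1, h2⟩ := div_unique (p := D.lft f) (q := D.lft g + D.disp k) hf.1 (D.key_box k ε)
      (by
        show D.M • _ + _ = D.M • _ + _
        rw [smul_add, add_assoc, ← he]
        abel)
    refine hf.2 ⟨k, ε, ?_, h2⟩
    cases k with
    | inl l => trivial
    | inr u =>
      obtain ⟨g', v⟩ := u
      change g' = g at hown
      show g' = f
      rw [hown]
      apply D.val_inj
      have := congrArg D.π h1
      rw [map_add, D.π_lft, D.π_lft, show D.disp (Sum.inr (g', v)) = v.1 from rfl,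
        D.gens_ker v.1 v.2, add_zero] at this
      exact this.symm
  · obtain ⟨-, ε, he⟩ := hf
    obtain ⟨-, η, he'⟩ := hg
    obtain ⟨h1, h2⟩ := div_unique (p := D.lft f + D.disp k) (q := D.lft g + D.disp k')
      (D.key_box k ε) (D.key_box k' η)
      (by
        show D.M • _ + _ = D.M • _ + _
        rw [smul_add, smul_add, add_assoc, add_assoc, ← he, ← he']
        abel)
    obtain ⟨rfl, -⟩ := D.key_inj h2
    exact ⟨D.val_inj (by rw [← D.π_lft, ← D.π_lft, add_right_cancel h1]), rfl⟩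

/-- Existence. -/
theorem exists_tiling {F : Finset G} (hF : ∀ g, g ∈ F ↔ ∃ f, D.val f = g) {A : Set G}
    (hA : IsTiling F A) :
    IsTiling D.tile {a | ∃ u, D.π u ∈ A ∧ a = D.M • u} := by
  -- the cell above a position
  have cell : ∀ p, ∃ f, D.π (p - D.lft f) ∈ A ∧ ∀ g, D.π (p - D.lft g) ∈ A → g = f := by
    intro p
    obtain ⟨x, ⟨hx, hxA⟩, huniq⟩ := hA (D.π p)
    obtain ⟨f, rfl⟩ := (hF x).1 hx
    refine ⟨f, by rwa [map_sub, D.π_lft], fun g hg => D.val_inj (huniq _ ⟨(hF _).2 ⟨g, rfl⟩, ?_⟩)⟩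
    rwa [map_sub, D.π_lft] at hg
  intro z
  obtain ⟨p, r, hr, rfl⟩ := exists_div D.cnt z
  obtain ⟨f, hf, hfu⟩ := cell p
  -- every admissible element is one of the two candidates
  by_cases hc : D.Cav f r
  · obtain ⟨k, ε, hown, rfl⟩ := hc
    obtain ⟨f', hf', hfu'⟩ := cell (p - D.disp k)
    have hown' : D.Owns f' k := by
      cases k with
      | inl l => trivial
      | inr u =>
        obtain ⟨g, v⟩ := u
        change g = f at hown
        show g = f'
        refine hown.trans (hfu' f ?_)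
        rwa [map_sub, map_sub, show D.disp (Sum.inr (g, v)) = v.1 from rfl, D.gens_ker v.1 v.2,
          sub_zero, ← map_sub]
    refine ⟨D.M • (D.lft f' + D.disp k) + D.key k ε, ⟨D.mem_tile.2 ⟨f', Or.inr ⟨k, hown', ε, ?_⟩⟩,
      p - D.disp k - D.lft f', hf', ?_⟩, ?_⟩
    · rw [smul_add]; abel
    · simp only [smul_sub, smul_add]; unfold M; abel
    · rintro y ⟨hy, u, hu, hyu⟩
      obtain ⟨g, hb | ⟨k', hown'', η, hp⟩⟩ := D.mem_tile.1 hy
      · exfalso
        obtain ⟨h1, h2⟩ := div_unique (p := p) (q := u + D.lft g) hr hb.1 (by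
          show D.M • p + D.key k ε = D.M • _ + (y - D.M • D.lft g)
          rw [smul_add, ← hyu]; unfold M; abel)
        have hgf : g = f := hfu g (by rw [h1, add_sub_cancel_right]; exact hu)
        exact hb.2 ⟨k, ε, hgf ▸ hown, h2.symm⟩
      · obtain ⟨h1, h2⟩ := div_unique (p := p) (q := u + D.lft g + D.disp k') hr (D.key_box k' η)
          (by
            show D.M • p + D.key k ε = D.M • _ + D.key k' η
            rw [smul_add, smul_add, ← hyu, add_assoc, ← hp]; unfold M; abel)
        obtain ⟨rfl, rfl⟩ := D.key_inj h2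
        have hgf : g = f' := hfu' g (by rw [h1, add_sub_cancel_right, add_sub_cancel_right]; exact hu)
        subst hgf
        rw [← sub_eq_zero] at hp ⊢
        rw [← hp, smul_add]
        abel
  · refine ⟨D.M • D.lft f + r, ⟨D.mem_tile.2 ⟨f, Or.inl ?_⟩, p - D.lft f, hf, ?_⟩, ?_⟩
    · rw [add_sub_cancel_left]; exact ⟨hr, hc⟩
    · simp only [smul_sub]; unfold M; abel
    · rintro y ⟨hy, u, hu, hyu⟩
      obtain ⟨g, hb | ⟨k', hown'', η, hp⟩⟩ := D.mem_tile.1 hy
      · obtain ⟨h1, h2⟩ := div_unique (p := p) (q := u + D.lft g) hr hb.1 (by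
          show D.M • p + r = D.M • _ + (y - D.M • D.lft g)
          rw [smul_add, ← hyu]; unfold M; abel)
        have hgf : g = f := hfu g (by rw [h1, add_sub_cancel_right]; exact hu)
        subst hgf
        rw [h2]
        abel
      · exfalso
        obtain ⟨h1, h2⟩ := div_unique (p := p) (q := u + D.lft g + D.disp k') hr (D.key_box k' η)
          (by
            show D.M • p + r = D.M • _ + D.key k' η
            rw [smul_add, smul_add, ← hyu, add_assoc, ← hp]; unfold M; abel)
        refine hc ⟨k', η, ?_, h2⟩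
        cases k' with
        | inl l => trivial
        | inr w =>
          obtain ⟨g', v⟩ := w
          change g' = g at hown''
          show g' = f
          refine hown''.trans (hfu g ?_)
          have hd : D.disp (Sum.inr (g', v)) = v.1 := rfl
          rw [h1, map_sub, map_add, map_add, hd, D.gens_ker v.1 v.2, add_zero, add_sub_cancel_right]
          exact hu

section rigid

variable {A : Set (Fin d → ℤ)}

/-- The position of a cell. -/
noncomputable def pos (a : Fin d → ℤ) (f : D.ι) : Fin d → ℤ := a + D.M • D.lft f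

/-- Two cells covering one point coincide, with equal roles. -/
lemma cell_unique (hT : IsTiling D.tile A) {a b z : Fin d → ℤ} (ha : a ∈ A) (hb : b ∈ A)
    {f g : D.ι} :
    (D.Body f (z - D.pos a f) → D.Body g (z - D.pos b g) → a = b ∧ f = g) ∧
    (∀ k, D.Body f (z - D.pos a f) → D.Prot g k (z - D.pos b g) → False) ∧
    (∀ k k', D.Prot f k (z - D.pos a f) → D.Prot g k' (z - D.pos b g) →
      a = b ∧ f = g ∧ k = k') := by
  have e : ∀ a f, z - D.pos a f = (z - a) - D.M • D.lft f := fun a f => by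
    simp only [pos]; abel
  have same : ∀ (f g : D.ι), (D.Body f (z - D.pos a f) ∨ ∃ k, D.Prot f k (z - D.pos a f)) →
      (D.Body g (z - D.pos b g) ∨ ∃ k, D.Prot g k (z - D.pos b g)) → a = b := by
    intro f g hf hg
    obtain ⟨y, -, huniq⟩ := hT z
    have h1 := huniq (z - a) ⟨D.mem_tile.2 ⟨f, by rwa [← e]⟩, by rwa [sub_sub_cancel]⟩
    have h2 := huniq (z - b) ⟨D.mem_tile.2 ⟨g, by rwa [← e]⟩, by rwa [sub_sub_cancel]⟩
    exact sub_right_injective (h1.trans h2.symm)
  refine ⟨fun hf hg => ?_, fun k hf hg => ?_, fun k k' hf hg => ?_⟩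
  · have hab := same f g (Or.inl hf) (Or.inl hg)
    subst hab
    rw [e] at hf hg
    exact ⟨rfl, D.rep_unique.1 hf hg⟩
  · have hab := same f g (Or.inl hf) (Or.inr ⟨k, hg⟩)
    subst hab
    rw [e] at hf hg
    exact D.rep_unique.2.1 k hf hg
  · have hab := same f g (Or.inr ⟨k, hf⟩) (Or.inr ⟨k', hg⟩)
    subst hab
    rw [e] at hf hg
    exact ⟨rfl, D.rep_unique.2.2 k k' hf hg⟩

lemma cell_exists (hT : IsTiling D.tile A) (z : Fin d → ℤ) :
    ∃ a ∈ A, ∃ f, D.Body f (z - D.pos a f) ∨ ∃ k, D.Prot f k (z - D.pos a f) := by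
  obtain ⟨y, ⟨hy, hyA⟩, -⟩ := hT z
  obtain ⟨f, hf⟩ := D.mem_tile.1 hy
  refine ⟨z - y, hyA, f, ?_⟩
  rwa [show z - D.pos (z - y) f = y - D.M • D.lft f by simp only [pos]; abel]

/-- A cavity point lies in the box of no other cell. -/
lemma cavity_box (hT : IsTiling D.tile A) {a b : Fin d → ℤ} (ha : a ∈ A) (hb : b ∈ A)
    {f g : D.ι} (k : D.Key) (ε : Bool)
    (hbox : InBox D.cnt (D.pos a f + D.key k ε - D.pos b g)) : a = b ∧ f = g := by
  set w := D.pos a f + D.key k ε - D.pos b g with hw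
  have hM := five_le_side D.cnt
  -- a displacement along axis 1 keeping the point in both boxes, off both cavity lines
  obtain ⟨δ, hδ0, hδ1, hδw, hδl⟩ : ∃ δ : ℤ, δ ≠ 0 ∧ (0 ≤ 2 + δ ∧ 2 + δ < side D.cnt) ∧
      (0 ≤ w D.a1 + δ ∧ w D.a1 + δ < side D.cnt) ∧ w D.a1 + δ ≠ 2 := by
    obtain ⟨h0, h1⟩ := hbox D.a1
    by_cases hhi : w D.a1 + 2 < side D.cnt
    · by_cases h : w D.a1 + 1 = 2
      · exact ⟨2, by norm_num, by omega, by omega, by omega⟩
      · exact ⟨1, by norm_num, by omega, by omega, h⟩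
    · by_cases h : w D.a1 - 1 = 2
      · exact ⟨-2, by norm_num, by omega, by omega, by omega⟩
      · exact ⟨-1, by norm_num, by omega, by omega, by omega⟩
  set e : Fin d → ℤ := Pi.single D.a1 δ
  have hin : ∀ r : Fin d → ℤ, InBox D.cnt r → 0 ≤ r D.a1 + δ → r D.a1 + δ < side D.cnt →
      InBox D.cnt (r + e) := by
    intro r hr h0 h1 l
    by_cases hl : l = D.a1
    · subst hl; simp [e, h0, h1]
    · simpa [e, Pi.single_eq_of_ne hl] using hr l
  have hA : D.Body f (D.pos a f + D.key k ε + e - D.pos a f) := by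
    rw [show D.pos a f + D.key k ε + e - D.pos a f = D.key k ε + e by abel]
    refine ⟨hin _ (D.key_box k ε) ?_ ?_, D.not_cav_of ?_⟩
    · rw [D.key_a1]; exact hδ1.1
    · rw [D.key_a1]; exact hδ1.2
    · simp [e, D.key_a1, hδ0]
  have hB : D.Body g (D.pos a f + D.key k ε + e - D.pos b g) := by
    rw [show D.pos a f + D.key k ε + e - D.pos b g = w + e by rw [hw]; abel]
    refine ⟨hin _ hbox hδw.1 hδw.2, D.not_cav_of ?_⟩
    simp [e, hδl]
  exact (D.cell_unique hT ha hb).1 hA hB

/-- The key mechanism: an owned cavity is filled by the same key of the cell behind it. -/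
lemma key_filled (hT : IsTiling D.tile A) {a : Fin d → ℤ} (ha : a ∈ A) {f : D.ι} {k : D.Key}
    (hk : D.Owns f k) :
    ∃ b ∈ A, ∃ g, D.Owns g k ∧ D.pos b g = D.pos a f - D.M • D.disp k := by
  set z := D.pos a f + D.key k false with hz
  obtain ⟨b, hb, g, hg | ⟨k', hown', ε, hg⟩⟩ := D.cell_exists hT z
  · obtain ⟨hab, hfg⟩ := D.cavity_box hT ha hb k false hg.1
    subst hab hfg
    exact absurd ⟨k, false, hk, by rw [hz, add_sub_cancel_left]⟩ hg.2
  -- the mate of the protruding point
  set z' := z - D.key k' ε + D.key k' (!ε) with hz'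
  have hg' : D.Prot g k' (z' - D.pos b g) := by
    refine ⟨hown', !ε, ?_⟩
    rw [hz', show z - D.key k' ε + D.key k' (!ε) - D.pos b g
      = (z - D.pos b g) - D.key k' ε + D.key k' (!ε) by abel, hg]
    abel
  set r := z' - D.pos a f with hr
  have hrl : ∀ l, r l = D.key k false l - D.key k' ε l + D.key k' (!ε) l := fun l => by
    simp only [hr, hz', hz, Pi.sub_apply, Pi.add_apply]; ring
  have hbox : InBox D.cnt r := by
    intro l
    rw [hrl]
    have := five_le_side D.cnt
    by_cases hl : l = D.a0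
    · subst hl
      simp only [key, pt_self]
      have h1 := px_bounds (D.num_lt k) false
      have h2 : (D.num k' : ℤ) + 1 ≤ D.cnt := by exact_mod_cast D.num_lt k'
      unfold px at h1 ⊢
      cases ε <;> simp at h1 ⊢ <;> omega
    · simp only [key, pt_other hl]
      omega
  have hcav : D.Cav f r := by
    by_contra hc
    exact (D.cell_unique hT ha hb (z := z')).2.1 k' ⟨hbox, hc⟩ hg'
  obtain ⟨j, η, -, hj⟩ := hcav
  have h0 := hrl D.a0
  rw [hj] at h0
  simp only [key, pt_self] at h0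
  obtain ⟨hkk, rfl⟩ := px_match (D.num_lt k) (D.num_lt j) (D.num_lt k')
    (show px D.cnt (D.num j) η = _ by linarith [h0])
  obtain rfl := D.num_inj hkk
  refine ⟨b, hb, g, hown', ?_⟩
  rw [hz] at hg
  rw [← sub_eq_zero] at hg ⊢
  rw [← neg_eq_zero, ← hg]
  abel

lemma grid_closed (hT : IsTiling D.tile A) {a : Fin d → ℤ} (ha : a ∈ A) (f : D.ι) (l : Fin d) :
    ∃ b ∈ A, ∃ g, D.pos b g = D.pos a f - D.M • Pi.single l 1 := by
  obtain ⟨b, hb, g, -, h⟩ := D.key_filled hT ha (f := f) (k := Sum.inl l) trivial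
  exact ⟨b, hb, g, h⟩

lemma gens_closed (hT : IsTiling D.tile A) [Nonempty D.ι] {a : Fin d → ℤ} (ha : a ∈ A)
    {v : Fin d → ℤ} (hv : v ∈ D.gens) : a - D.M • v ∈ A := by
  obtain ⟨f⟩ := (inferInstance : Nonempty D.ι)
  obtain ⟨b, hb, g, hown, h⟩ :=
    D.key_filled hT ha (f := f) (k := Sum.inr (f, ⟨v, hv⟩)) rfl
  change f = g at hown
  subst hown
  have : b = a - D.M • v := by
    simp only [pos, show D.disp (Sum.inr (f, ⟨v, hv⟩)) = v from rfl] at h
    rw [← sub_eq_zero] at h ⊢
    rw [← h]; abel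
  exact this ▸ hb

/-- All cells are congruent modulo the side. -/
lemma congruent (hT : IsTiling D.tile A) {a b : Fin d → ℤ} (ha : a ∈ A) (hb : b ∈ A)
    (f g : D.ι) : ∃ n, D.pos b g = D.pos a f + D.M • n := by
  -- going down
  have down : ∀ v : Fin d → ℤ, (∀ l, 0 ≤ v l) → ∀ a ∈ A, ∀ f,
      ∃ a' ∈ A, ∃ f', D.pos a' f' = D.pos a f - D.M • v := by
    suffices h : ∀ (n : ℕ) (v : Fin d → ℤ), (∀ l, 0 ≤ v l) → (∑ l, v l).toNat = n → ∀ a ∈ A, ∀ f,
        ∃ a' ∈ A, ∃ f', D.pos a' f' = D.pos a f - D.M • v from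
      fun v hv => h _ v hv rfl
    intro n
    induction n with
    | zero =>
      intro v hv hn a ha f
      have hle : ∑ l, v l ≤ 0 := by omega
      have hv0 : v = 0 := funext fun l => le_antisymm
        ((Finset.single_le_sum (fun i _ => hv i) (Finset.mem_univ l)).trans hle) (hv l)
      exact ⟨a, ha, f, by rw [hv0, smul_zero, sub_zero]⟩
    | succ n ih =>
      intro v hv hn a ha f
      obtain ⟨l, hl⟩ : ∃ l, 0 < v l := by
        by_contra hne
        push Not at hne
        have : ∑ l, v l ≤ 0 := Finset.sum_nonpos fun l _ => hne l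
        omega
      obtain ⟨a1, ha1, f1, h1⟩ := D.grid_closed hT ha f l
      have hsum : ∑ i, (v - Pi.single l 1 : Fin d → ℤ) i = (∑ i, v i) - 1 := by
        simp only [Pi.sub_apply, Finset.sum_sub_distrib, Fintype.sum_pi_single']
      obtain ⟨a2, ha2, f2, h2⟩ := ih (v - Pi.single l 1) (fun i => by
        by_cases hi : i = l
        · subst hi; simp; omega
        · simp [Pi.single_eq_of_ne hi, hv i]) (by rw [hsum]; omega) a1 ha1 f1
      exact ⟨a2, ha2, f2, by rw [h2, h1, smul_sub]; abel⟩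
  set k : D.Key := Sum.inl D.a0
  obtain ⟨n, r, hr, hn⟩ := exists_div D.cnt (D.pos a f + D.key k false - D.pos b g)
  obtain ⟨a', ha', f', hf'⟩ := down (fun l => max (n l) 0) (fun l => le_max_right _ _) a ha f
  obtain ⟨b', hb', g', hg'⟩ := down (fun l => max (-n l) 0) (fun l => le_max_right _ _) b hb g
  have hnn : ((fun l => max (n l) 0) : Fin d → ℤ) = (fun l => max (-n l) 0) + n := by
    funext l; simp only [Pi.add_apply]; omega
  obtain ⟨hab, hfg⟩ := D.cavity_box hT ha' hb' (f := f') (g := g') k false (by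
    rw [hf', hg', hnn, smul_add]
    have : D.pos a f - (D.M • (fun l => max (-n l) 0) + D.M • n) + D.key k false
        - (D.pos b g - D.M • (fun l => max (-n l) 0))
        = (D.pos a f + D.key k false - D.pos b g) - D.M • n := by abel
    rw [this, hn, show side D.cnt = D.M from rfl, add_sub_cancel_left]
    exact hr)
  subst hab hfg
  refine ⟨-n, ?_⟩
  rw [hf', hnn, smul_add] at hg'
  rw [← sub_eq_zero] at hg' ⊢
  rw [← neg_eq_zero, ← hg', smul_neg]
  abel

/-- Every tiling by the new tile gives a tiling of the quotient, periodic when it is. -/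
theorem not_periodic (hsymm : ∀ v ∈ D.gens, -v ∈ D.gens)
    (hgen : ∀ v, D.π v = 0 → v ∈ AddSubgroup.closure (D.gens : Set (Fin d → ℤ)))
    (hsurj : Function.Surjective D.π) {F : Finset G} (hF : ∀ g, g ∈ F ↔ ∃ f, D.val f = g)
    [Nonempty D.ι] (hno : ∀ B, IsTiling F B → ¬ IsPeriodic B) (hT : IsTiling D.tile A) :
    ¬ IsPeriodic A := by
  obtain ⟨a0, ha0, f0, -⟩ := D.cell_exists hT 0
  set base := D.pos a0 f0
  have hcong : ∀ a ∈ A, ∀ f, ∃ n, D.pos a f = base + D.M • n :=
    fun a ha f => D.congruent hT ha0 ha f0 f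
  set A2 : Set (Fin d → ℤ) := {u | base + D.M • u ∈ A} with hA2
  have hclo : ∀ v, D.π v = 0 → ∀ u ∈ A2, u + v ∈ A2 := by
    intro v hv
    refine AddSubgroup.closure_induction_left (p := fun v _ => ∀ u ∈ A2, u + v ∈ A2)
      (fun u hu => by rwa [add_zero]) (fun x hx y _ hy u hu => ?_) (fun x hx y _ hy u hu => ?_)
      (hgen v hv)
    · rw [← add_assoc]
      refine hy _ ?_
      have h := D.gens_closed hT hu (hsymm x hx)
      show base + D.M • (u + x) ∈ A
      rwa [smul_neg, sub_neg_eq_add, add_assoc, ← smul_add] at h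
    · rw [← add_assoc]
      refine hy _ ?_
      have h := D.gens_closed hT hu hx
      show base + D.M • (u + -x) ∈ A
      rwa [add_sub_assoc, ← smul_sub, sub_eq_add_neg] at h
  have hB : IsTiling F (D.π '' A2) := by
    intro g
    obtain ⟨p, rfl⟩ := hsurj g
    obtain ⟨a, ha, f, hf⟩ := D.cell_exists hT (base + D.M • p)
    obtain ⟨n, hn⟩ := hcong a ha f
    have hdiff : base + D.M • p - D.pos a f = D.M • (p - n) := by rw [hn, smul_sub]; abel
    rw [hdiff] at hf
    have hM := five_le_side D.cnt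
    obtain hb | ⟨k, -, ε, hk⟩ := hf
    swap
    · have := congrFun hk D.a1
      simp only [Pi.add_apply, Pi.smul_apply, Pi.sub_apply, smul_eq_mul, D.key_a1] at this
      have hdvd : D.M ∣ 2 := ⟨p D.a1 - n D.a1 - D.disp k D.a1, by linarith⟩
      have := Int.le_of_dvd (by norm_num) hdvd
      unfold M at this
      omega
    have hpn : p = n := by
      funext l
      obtain ⟨h0, h1⟩ := hb.1 l
      simp only [Pi.smul_apply, smul_eq_mul, Pi.sub_apply] at h0 h1
      unfold M at h0 h1
      have : p l - n l = 0 := by nlinarith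
      linarith
    subst hpn
    have hu : p - D.lft f ∈ A2 := by
      show base + D.M • (p - D.lft f) ∈ A
      have : base + D.M • (p - D.lft f) = a := by
        rw [smul_sub, ← add_sub_assoc, ← hn]; simp only [pos]; abel
      rwa [this]
    refine ⟨D.val f, ⟨(hF _).2 ⟨f, rfl⟩, p - D.lft f, hu, by rw [map_sub, D.π_lft]⟩, ?_⟩
    rintro x ⟨hx, u, huA, hπu⟩
    obtain ⟨g, rfl⟩ := (hF x).1 hx
    have hu' : p - D.lft g ∈ A2 := by
      have := hclo (p - D.lft g - u) (by rw [map_sub, hπu, map_sub, D.π_lft, sub_self]) u huA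
      rwa [add_sub_cancel] at this
    have hpos : base + D.M • p - D.pos (base + D.M • (p - D.lft g)) g = 0 := by
      simp only [pos, smul_sub]; abel
    have hbody : ∀ f', D.Body f' 0 := fun f' =>
      ⟨fun l => ⟨le_rfl, by simp only [Pi.zero_apply]; omega⟩, D.not_cav_of (by simp)⟩
    obtain ⟨-, hgf⟩ := (D.cell_unique hT hu' ha (z := base + D.M • p) (f := g) (g := f)).1
      (by rw [hpos]; exact hbody g)
      (by rw [hdiff, sub_self, smul_zero]; exact hbody f)
    rw [hgf]
  intro hper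
  obtain ⟨H, hH, hinv⟩ := hper
  refine hno _ hB ⟨(H.comap (D.M • AddMonoidHom.id (Fin d → ℤ))).map D.π, ?_, ?_⟩
  · haveI : (H.comap (D.M • AddMonoidHom.id (Fin d → ℤ))).FiniteIndex :=
      ⟨fun h0 => hH.index_ne_zero (by
        have := AddSubgroup.index_comap H (D.M • AddMonoidHom.id (Fin d → ℤ))
        rw [h0] at this
        exact AddSubgroup.index_eq_zero_of_relIndex_eq_zero this.symm)⟩
    refine ⟨fun h0 => ?_⟩
    have := AddSubgroup.index_map_dvd (H.comap (D.M • AddMonoidHom.id (Fin d → ℤ))) (f := D.π) hsurj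
    rw [h0, zero_dvd_iff] at this
    exact AddSubgroup.FiniteIndex.index_ne_zero this
  · have key : ∀ h, D.M • h ∈ H → ∀ x ∈ D.π '' A2, x + D.π h ∈ D.π '' A2 := by
      rintro h hh x ⟨u, hu, rfl⟩
      refine ⟨u + h, ?_, map_add _ _ _⟩
      show base + D.M • (u + h) ∈ A
      rw [smul_add, ← add_assoc]
      exact (hinv _ hh _).2 hu
    rintro _ ⟨h, hh, rfl⟩ x
    have hh' : D.M • h ∈ H := hh
    refine ⟨fun hx => ?_, key h hh' x⟩
    have h1 := key (-h) (by rw [smul_neg]; exact H.neg_mem hh') _ hx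
    rwa [map_neg, add_neg_cancel_right] at h1

end rigid

end Data

end Vale.Agent.P043.Lift

namespace Vale.Agent.P043

open Lift

/-- **LiftPin**. -/
theorem liftPin : LiftPin := by
  intro d hd G _ π hπ F hF
  obtain ⟨⟨A, hA⟩, hno⟩ := hF
  classical
  obtain ⟨x0, ⟨hx0, -⟩, -⟩ := hA 0
  have : Nonempty {g // g ∈ F} := ⟨⟨x0, hx0⟩⟩
  obtain ⟨S, hS⟩ : ∃ S : Finset (Fin d → ℤ), AddSubgroup.closure (S : Set (Fin d → ℤ)) = π.ker := by
    obtain ⟨S, hS⟩ := IsNoetherian.noetherian (AddSubgroup.toIntSubmodule π.ker)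
    refine ⟨S, ?_⟩
    have := congrArg Submodule.toAddSubgroup hS
    rwa [Submodule.span_int_eq_addSubgroupClosure] at this
  let D : Data d G :=
    { ι := {g // g ∈ F}
      fι := inferInstance
      val := Subtype.val
      val_inj := Subtype.val_injective
      π := π
      lft := fun f => Function.surjInv hπ f.1
      π_lft := fun f => Function.surjInv_eq hπ f.1
      gens := S ∪ S.image (fun v => -v)
      gens_ker := by
        have h : ∀ v ∈ S, π v = 0 := fun v hv =>
          AddMonoidHom.mem_ker.1 (hS ▸ AddSubgroup.subset_closure hv)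
        intro v hv
        rcases Finset.mem_union.1 hv with hv | hv
        · exact h v hv
        · obtain ⟨w, hw, rfl⟩ := Finset.mem_image.1 hv
          rw [map_neg, h w hw, neg_zero]
      a0 := ⟨0, by omega⟩
      a1 := ⟨1, by omega⟩
      a10 := by simp }
  have hFv : ∀ g, g ∈ F ↔ ∃ f : D.ι, D.val f = g :=
    fun g => ⟨fun h => ⟨⟨g, h⟩, rfl⟩, fun ⟨f, hf⟩ => hf ▸ f.2⟩
  have : Nonempty D.ι := ‹Nonempty {g // g ∈ F}›
  have hT := D.exists_tiling hFv hA
  obtain ⟨y, ⟨hy, -⟩, -⟩ := hT 0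
  refine ⟨D.tile, ⟨y, hy⟩, ⟨_, hT⟩, fun A' hA' => ?_⟩
  refine D.not_periodic (fun v hv => ?_) (fun v hv => ?_) hπ hFv hno hA'
  · rcases Finset.mem_union.1 hv with hv | hv
    · exact Finset.mem_union_right _ (Finset.mem_image_of_mem _ hv)
    · obtain ⟨w, hw, rfl⟩ := Finset.mem_image.1 hv
      rw [neg_neg]
      exact Finset.mem_union_left _ hw
  · refine AddSubgroup.closure_mono (Finset.coe_subset.2 Finset.subset_union_left) ?_
    rw [hS]
    exact hv

end Vale.Agent.P043
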