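import Vale.Agent.P043.Combine
import Vale.Agent.P043.Lift
import Vale.Agent.P043.Core.Encode
import Vale.Agent.P043.Core.Descent
import Vale.Agent.P043.Gadget.Four.Main
import Vale.Agent.P043.Euclid

/-!
P043: the assembly with a two-generated finite group: the periodic tiling conjecture fails in
`ℤ^d` and in `ℝ^d` for every `d ≥ 4`.
-/

namespace Vale.Agent.P043

open Finset

/-- A system with two finite generators becomes one tile with two finite generators. -/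
theorem combineFour (h : HasSystemFour) : ∃ (Γ : Type) (_ : AddCommGroup Γ) (_ : Fintype Γ)
    (F : Finset ((ℤ × ℤ) × Γ)), (∃ π : (Fin 2 → ℤ) →+ Γ, Function.Surjective π) ∧
    IsAperiodicTile F := by
  classical
  obtain ⟨Γ, iG, iF, K, ι, iι, F, hcard, ⟨i₀, hi₀⟩, ⟨π, hπ⟩, hex, hno⟩ := h
  set W : Finset ((ℤ × ℤ) × Γ) :=
    {((1, 0), 0), ((0, 1), 0)} ∪ univ.image fun γ : Γ => ((0 : ℤ × ℤ), γ)
  have hW : ∀ H : AddSubgroup ((ℤ × ℤ) × Γ), (∀ w ∈ W, w ∈ H) → H = ⊤ := by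
    intro H hH
    rw [AddSubgroup.eq_top_iff']
    rintro ⟨⟨n, m⟩, γ⟩
    have e : ((n, m), γ) = n • (((1 : ℤ), (0 : ℤ)), (0 : Γ)) + m • (((0 : ℤ), (1 : ℤ)), (0 : Γ))
        + ((0 : ℤ × ℤ), γ) := by simp
    rw [e]
    exact H.add_mem (H.add_mem (H.zsmul_mem (hH _ (by simp [W])) n)
      (H.zsmul_mem (hH _ (by simp [W])) m)) (hH _ (by simp [W]))
  obtain ⟨N, T, hNp, hNcard, hT⟩ := exists_combine (AddSubgroup.prod ⊥ K) (fibre K)
    (fun x => by
      obtain ⟨x, γ⟩ := x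
      simp [fibre, AddSubgroup.mem_prod, eq_comm, and_comm])
    W hW F hcard i₀ hi₀ hex hno (Fintype.card Γ)
  have : NeZero N := ⟨hNp.ne_zero⟩
  have : Fact N.Prime := ⟨hNp⟩
  refine ⟨Γ × ZMod N, inferInstance, inferInstance,
    T.map (AddEquiv.prodAssoc (M := ℤ × ℤ) (N := Γ) (P := ZMod N)).toEquiv.toEmbedding,
    ⟨π.prod ((Int.castAddHom (ZMod N)).comp (Pi.evalAddMonoidHom (fun _ : Fin 2 => ℤ) 0)), ?_⟩,
    hT.map _⟩
  rintro ⟨γ, t⟩
  obtain ⟨v, rfl⟩ := hπ γ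
  have hne : ((Fintype.card Γ : ℕ) : ZMod N) ≠ 0 := by
    rw [Ne, ZMod.natCast_eq_zero_iff]
    exact fun h => absurd (Nat.le_of_dvd Fintype.card_pos h) (by omega)
  obtain ⟨k, hk⟩ := ZMod.intCast_surjective ((t - (v 0 : ZMod N)) / (Fintype.card Γ : ZMod N))
  refine ⟨v + Fintype.card Γ • (k • Pi.single 0 1), Prod.ext ?_ ?_⟩
  · change π (v + _) = π v
    rw [map_add, map_nsmul, card_nsmul_eq_zero, add_zero]
  · simp [hk]
    field_simp
    ring

/-- Two plane directions and two finite generators fit in four dimensions. -/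
theorem exists_surjective_lattice_four {Γ : Type} [AddCommGroup Γ] {d : ℕ} (hd : 4 ≤ d)
    (π : (Fin 2 → ℤ) →+ Γ) (hπ : Function.Surjective π) :
    ∃ ρ : (Fin d → ℤ) →+ (ℤ × ℤ) × Γ, Function.Surjective ρ := by
  let sel : (Fin d → ℤ) →+ (ℤ × ℤ) × (Fin 2 → ℤ) :=
    { toFun := fun v => ((v ⟨0, by omega⟩, v ⟨1, by omega⟩), fun i => v ⟨i.1 + 2, by omega⟩)
      map_zero' := rfl
      map_add' := fun _ _ => rfl }
  refine ⟨((AddMonoidHom.id (ℤ × ℤ)).prodMap π).comp sel, ?_⟩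
  rintro ⟨⟨a, b⟩, γ⟩
  obtain ⟨w, rfl⟩ := hπ γ
  refine ⟨fun j => if j.1 = 0 then a else if j.1 = 1 then b else
    if h : j.1 - 2 < 2 then w ⟨j.1 - 2, h⟩ else 0, ?_⟩
  simp [sel]
  congr 1
  funext i
  rw [if_pos (by omega)]

/-- The periodic tiling conjecture fails in every lattice of rank at least four. -/
theorem aperiodicTile_of_four_le (d : ℕ) (hd : 4 ≤ d) :
    ∃ F : Finset (Fin d → ℤ), F.Nonempty ∧ IsAperiodicTile F := by
  obtain ⟨Γ, i1, i2, F, ⟨π, hπ⟩, hF⟩ :=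
    combineFour (Gadget.Four.hasSystemFour (Core.Encode.encodePin Core.descentPin))
  obtain ⟨ρ, hρ⟩ := exists_surjective_lattice_four hd π hπ
  exact liftPin d (by omega) _ inferInstance ρ hρ F hF

/-- It also fails in every Euclidean space of dimension at least four. -/
theorem hasAperiodicTile_of_four_le (d : ℕ) (hd : 4 ≤ d) : Euclid.HasAperiodicTile d :=
  let ⟨_, hne, hF⟩ := aperiodicTile_of_four_le d hd
  Euclid.hasAperiodicTile_of hne hF

end Vale.Agent.P043
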