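import Vale.Agent.P043.Defs

/-!
P043 pins (helper6 architect).

* `CorePin`   : a line system of 3-clauses on the plane, with two parity bits, has a
  solution but no periodic one.
* `GadgetPin` : every such system becomes a finite system of tiling equations with a
  common translation set in `(ℤ × ℤ) × Γ`, `Γ` generated by three elements.
* `CombinePin`: such a system becomes one tile, the finite factor still 3-generated.
* `LiftPin`   : an aperiodic tile of a quotient of `ℤ^d` gives one of `ℤ^d` (keyed boxes).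
-/

namespace Vale.Agent.P043

/-- Boolean variables on `ℤ × ℤ`, each invariant under one vector, two parity variables,
and clauses with three literals. -/
structure LineSys where
  B : Type
  fintypeB : Fintype B
  decEqB : DecidableEq B
  per : B → ℤ × ℤ
  parX : B
  parY : B
  clauses : Finset (Fin 3 → B × Bool)

namespace LineSys

/-- A solution of a line system. -/
def IsSol (L : LineSys) (c : ℤ × ℤ → L.B → Bool) : Prop :=
  (∀ x b, c (x + L.per b) b = c x b) ∧
  (∀ x, c (x + (1, 0)) L.parX = !(c x L.parX)) ∧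
  (∀ x, c (x + (0, 1)) L.parX = c x L.parX) ∧
  (∀ x, c (x + (1, 0)) L.parY = c x L.parY) ∧
  (∀ x, c (x + (0, 1)) L.parY = !(c x L.parY)) ∧
  (∀ x, ∀ K ∈ L.clauses, ∃ i : Fin 3, c x (K i).1 = (K i).2)

/-- A solution invariant under a full rank sublattice. -/
def IsPerSol (L : LineSys) (c : ℤ × ℤ → L.B → Bool) : Prop :=
  L.IsSol c ∧ ∃ P : ℕ, 0 < P ∧ ∀ x, c (x + ((P : ℤ), 0)) = c x ∧ c (x + (0, (P : ℤ))) = c x

end LineSys

/-- There is a line system with a solution and without periodic solutions. -/
def CorePin : Prop :=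
  ∃ L : LineSys, (∃ c, L.IsSol c) ∧ ∀ c, ¬ L.IsPerSol c

/-- A system of tiling equations with a common translation set: all equations hold. -/
def SystemTiles {G ι : Type*} [AddCommGroup G] (F : ι → Finset G) (A : Set G) : Prop :=
  ∀ i, IsTiling (F i) A

/-- The finite fibre `{0} × K` inside `(ℤ × ℤ) × Γ`. -/
noncomputable def fibre {Γ : Type*} [AddCommGroup Γ] [Fintype Γ] (K : AddSubgroup Γ) :
    Finset ((ℤ × ℤ) × Γ) := by
  classical exact (Finset.univ.filter fun γ : Γ => γ ∈ K).image fun γ => ((0 : ℤ × ℤ), γ)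

/-- A finite system in `(ℤ × ℤ) × Γ` all of whose tiles have the size of the subgroup `K`,
one of them being the fibre of `K`, with a tiling but without periodic tilings. -/
def HasSystem : Prop :=
  ∃ (Γ : Type) (_ : AddCommGroup Γ) (_ : Fintype Γ) (K : AddSubgroup Γ) (ι : Type)
    (_ : Fintype ι) (F : ι → Finset ((ℤ × ℤ) × Γ)),
    (∀ i, (F i).card = (fibre K).card) ∧ (∃ i, F i = fibre K) ∧
    (∃ π : (Fin 3 → ℤ) →+ Γ, Function.Surjective π) ∧
    (∃ A, SystemTiles F A) ∧ (∀ A, SystemTiles F A → ¬ IsPeriodic A)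

/-- Line systems become systems of tiling equations. -/
def GadgetPin : Prop :=
  CorePin → HasSystem

/-- Systems of tiling equations become one tile. -/
def CombinePin : Prop :=
  HasSystem → ∃ (Γ : Type) (_ : AddCommGroup Γ) (_ : Fintype Γ)
    (F : Finset ((ℤ × ℤ) × Γ)), (∃ π : (Fin 3 → ℤ) →+ Γ, Function.Surjective π) ∧
    IsAperiodicTile F

/-- An aperiodic tile in a quotient of `ℤ^d` gives one in `ℤ^d`. -/
def LiftPin : Prop :=
  ∀ (d : ℕ), 2 ≤ d → ∀ (G : Type) (_ : AddCommGroup G) (π : (Fin d → ℤ) →+ G),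
    Function.Surjective π → ∀ F : Finset G, IsAperiodicTile F →
      ∃ F' : Finset (Fin d → ℤ), F'.Nonempty ∧ IsAperiodicTile F'

end Vale.Agent.P043
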